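import Vale.Agent.P032W.S5.H483.MinW
import Mathlib.Analysis.SpecialFunctions.Trigonometric.Bounds

/-!
# P032: the run lemma

`run_inside`: if a colour `e`, not in the palette of `z`, is carried by an arc of `S(z)` through `v`,
then `e` is free at all points near `v` inside the disc about `z`.
`run_far`: if moreover the palette of `v` is minimal (weak form), then every other colour of
`v` has pure points outside the disc arbitrarily near `v`.
-/

open Set Filter Topology Metric

noncomputable section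

namespace Vale.Agent.P032.H642

open Vale.Agent.P032.Six

variable {k : ℕ} {U : Fin k → Set ℂ} {T : ℂ → Set (Fin k)}

/-- one of the two common points of the unit circles about `z` and `w` -/
def cr (z w : ℂ) : ℂ :=
  (z + w) / 2 + Complex.I * ((Real.sqrt (1 - (dist w z) ^ 2 / 4) / dist w z : ℝ) : ℂ) * (w - z)

theorem dist_cr {z w : ℂ} (h0 : 0 < dist w z) (h2 : dist w z ≤ 2) :
    dist (cr z w) z = 1 ∧ dist (cr z w) w = 1 := by
  set D := dist w z with hD
  set c : ℝ := Real.sqrt (1 - D ^ 2 / 4) / D with hc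
  have hDw : ‖w - z‖ = D := by rw [hD, dist_eq_norm]
  have hs : 0 ≤ 1 - D ^ 2 / 4 := by nlinarith
  have hc2 : c ^ 2 * D ^ 2 = 1 - D ^ 2 / 4 := by
    rw [hc, div_pow, Real.sq_sqrt hs]
    field_simp
  have key : ∀ s : ℝ, s ^ 2 = 1 / 4 →
      ‖((s : ℂ) + Complex.I * (c : ℂ)) * (w - z)‖ = 1 := by
    intro s hs2
    rw [norm_mul, hDw]
    have h1 : ‖(s : ℂ) + Complex.I * (c : ℂ)‖ ^ 2 = s ^ 2 + c ^ 2 := by
      rw [← Complex.normSq_eq_norm_sq, Complex.normSq_apply]
      simp
      ring
    have h3 : (‖(s : ℂ) + Complex.I * (c : ℂ)‖ * D) ^ 2 = 1 := by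
      rw [mul_pow, h1, add_mul, hc2, hs2]; ring
    have h4 : 0 ≤ ‖(s : ℂ) + Complex.I * (c : ℂ)‖ * D := by positivity
    nlinarith
  have hcr : cr z w = (z + w) / 2 + Complex.I * (c : ℂ) * (w - z) := rfl
  refine ⟨?_, ?_⟩
  · rw [dist_eq_norm, ← key (1 / 2) (by norm_num)]
    congr 1
    rw [hcr]
    push_cast
    ring
  · rw [dist_eq_norm, ← key (-1 / 2) (by norm_num)]
    congr 1
    rw [hcr]
    push_cast
    ring

theorem tendsto_cr {z v : ℂ} (hv : dist v z = 1) :
    Tendsto (cr z) (𝓝 (2 * v - z)) (𝓝 v) := by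
  have hd : dist (2 * v - z) z = 2 := by
    rw [dist_eq_norm] at hv ⊢
    have : 2 * v - z - z = 2 * (v - z) := by ring
    rw [this, norm_mul, hv]
    simp
  have h1 : ContinuousAt (cr z) (2 * v - z) := by
    have h2 : ContinuousAt (fun w : ℂ => dist w z) (2 * v - z) := by fun_prop
    have h3 : ContinuousAt (fun w : ℂ => Real.sqrt (1 - (dist w z) ^ 2 / 4) / dist w z)
        (2 * v - z) := by
      refine ContinuousAt.div ?_ h2 (by rw [hd]; norm_num)
      exact (Real.continuous_sqrt.continuousAt).comp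
        (continuousAt_const.sub ((h2.pow 2).div_const 4))
    have h4 : ContinuousAt (fun w : ℂ =>
        ((Real.sqrt (1 - (dist w z) ^ 2 / 4) / dist w z : ℝ) : ℂ)) (2 * v - z) :=
      (Complex.continuous_ofReal.continuousAt).comp h3
    have h5 : ContinuousAt (fun w : ℂ => (z + w) / 2 + Complex.I *
        ((Real.sqrt (1 - (dist w z) ^ 2 / 4) / dist w z : ℝ) : ℂ) * (w - z)) (2 * v - z) := by
      refine ContinuousAt.add (by fun_prop) (ContinuousAt.mul (continuousAt_const.mul h4) ?_)
      fun_prop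
    exact h5
  have h6 : cr z (2 * v - z) = v := by
    rw [cr, hd]
    norm_num
  have := h1.tendsto
  rwa [h6] at this

/-- near `2 v - z` the points inside the circle of radius two about `z` are not in `U e` -/
theorem outer_free (h : Irr U T) {z v : ℂ} {e : Fin k} (hv : dist v z = 1)
    (hJ : ∀ᶠ q in 𝓝[sphere z 1] v, e ∈ Pal U q) :
    ∀ᶠ w in 𝓝 (2 * v - z), dist w z < 2 → w ∉ U e := by
  obtain ⟨s, hs, hsub⟩ := mem_nhdsWithin_iff_exists_mem_nhds_inter.1 hJ
  have hd : dist (2 * v - z) z = 2 := by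
    rw [dist_eq_norm] at hv ⊢
    have : 2 * v - z - z = 2 * (v - z) := by ring
    rw [this, norm_mul, hv]
    simp
  have h1 : ∀ᶠ w in 𝓝 (2 * v - z), 0 < dist w z := by
    have h2 : ContinuousAt (fun w : ℂ => dist w z) (2 * v - z) := by fun_prop
    have h3 : (0 : ℝ) < dist (2 * v - z) z := by rw [hd]; norm_num
    exact h2.eventually (lt_mem_nhds h3)
  filter_upwards [(tendsto_cr hv).eventually hs, h1] with w hw h0 h2 hwU
  obtain ⟨h3, h4⟩ := dist_cr h0 h2.le
  have h5 : e ∈ Pal U (cr z w) := hsub ⟨hw, h3⟩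
  exact h.mx.free e w hwU _ h5 (by rw [dist_comm]; exact h4)

/-- **Run lemma.** If `e`, not in the palette of `z`, is carried by an arc of `S(z)` through `v`,
then `e` is free at all points near `v` inside the disc about `z`. -/
theorem run_inside (h : Irr U T) {z v : ℂ} {e : Fin k} (hv : dist v z = 1)
    (hJ : ∀ᶠ q in 𝓝[sphere z 1] v, e ∈ Pal U q) (hz : e ∉ Pal U z) :
    ∀ᶠ x in 𝓝 v, dist x z < 1 → Fre U e x := by
  obtain ⟨r, hr, hball⟩ := Metric.eventually_nhds_iff.1 (outer_free h hv hJ)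
  -- also for the closure
  have hcl : ∀ w, dist w (2 * v - z) < r → dist w z < 2 → w ∉ closure (U e) := by
    intro w hw1 hw2 hw
    have ho : IsOpen (ball (2 * v - z) r ∩ ball z 2) := isOpen_ball.inter isOpen_ball
    obtain ⟨y, hy1, hy2⟩ := mem_closure_iff.1 hw _ ho ⟨hw1, hw2⟩
    exact hball hy1.1 hy1.2 hy2
  -- the rest of the closure is away from the circle about `v`
  have hCc : IsClosed (closure (U e) \ ball (2 * v - z) r) :=
    isClosed_closure.sdiff isOpen_ball
  have hdisj : Disjoint (sphere v (1 : ℝ)) (closure (U e) \ ball (2 * v - z) r) := by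
    rw [Set.disjoint_left]
    rintro w hw ⟨hwe, hwr⟩
    have hw' : dist v w = 1 := by rw [dist_comm]; exact hw
    rcases h.mx.partner_line hv hJ hw' hwe with h1 | h1
    · exact hz (h1 ▸ hwe)
    · apply hwr
      have : w = 2 * v - z := by rw [← h1]; ring
      rw [this]
      exact mem_ball_self hr
  obtain ⟨m, hm, hmd⟩ := hdisj.exists_thickenings (isCompact_sphere v 1) hCc
  filter_upwards [ball_mem_nhds v hm] with x hx hxz
  intro w hw hxw
  by_cases hwr : dist w (2 * v - z) < r
  · refine hcl w hwr ?_ hw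
    have := dist_triangle w x z
    rw [dist_comm w x] at this
    linarith
  · have h1 : v + (w - x) ∈ sphere v (1 : ℝ) := by
      rw [mem_sphere, dist_eq_norm, add_sub_cancel_left, ← dist_eq_norm, dist_comm]; exact hxw
    have h2 : w ∈ thickening m (sphere v (1 : ℝ)) := by
      rw [mem_thickening_iff]
      refine ⟨v + (w - x), h1, ?_⟩
      rw [dist_eq_norm]
      have : w - (v + (w - x)) = x - v := by ring
      rw [this, ← dist_eq_norm]; exact hx
    exact Set.disjoint_left.1 hmd h2 (self_subset_thickening hm _ ⟨hw, hwr⟩)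

/-- a unit complex number near one, not one, at distance more than one from two -/
theorem exists_unit {r : ℝ} (hr : 0 < r) : ∃ c : ℂ, ‖c‖ = 1 ∧ ‖1 - c‖ < r ∧ 1 < ‖2 - c‖ := by
  set t : ℝ := min (r / 2) 1 with ht
  have ht0 : 0 < t := lt_min (by linarith) one_pos
  have ht1 : t ≤ 1 := min_le_right _ _
  have htr : t < r := lt_of_le_of_lt (min_le_left _ _) (by linarith)
  refine ⟨Complex.exp (Complex.I * t), ?_, ?_, ?_⟩
  · rw [Complex.norm_exp]; simp
  · have h1 := Real.norm_exp_I_mul_ofReal_sub_one_le (x := t)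
    rw [← norm_neg, neg_sub]
    refine lt_of_le_of_lt h1 ?_
    rw [Real.norm_eq_abs, abs_of_pos ht0]; exact htr
  · have hre : (Complex.exp (Complex.I * t)).re = Real.cos t := by
      rw [mul_comm]; exact Complex.exp_ofReal_mul_I_re t
    have hcos : Real.cos t < 1 := by
      have := Real.cos_lt_cos_of_nonneg_of_le_pi le_rfl (by linarith [Real.pi_gt_three]) ht0
      rwa [Real.cos_zero] at this
    have h2 := Complex.re_le_norm (2 - Complex.exp (Complex.I * t))
    rw [Complex.sub_re, hre] at h2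
    have : (2 : ℂ).re = 2 := rfl
    linarith

/-- on the circle about `z`: if `e` is carried by an arc of the circle through `q` and blocked at
`q`, then not all points near `q` outside the disc are in `U e` -/
theorem out_freq (h : Irr U T) {z q : ℂ} {e : Fin k} (hq : dist q z = 1)
    (hJ : ∀ᶠ q' in 𝓝[sphere z 1] q, e ∈ Pal U q') (hz : e ∉ Pal U z) (hb : ¬ Fre U e q) :
    ¬ ∀ᶠ w in 𝓝 q, 1 < dist w z → w ∈ U e := by
  intro hcon
  unfold Fre at hb
  push Not at hb
  obtain ⟨y, hy, hqy⟩ := hb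
  have hy2 : y = 2 * q - z := by
    rcases h.mx.partner_line hq hJ hqy hy with h1 | h1
    · exact absurd (h1 ▸ hy) hz
    · rw [← h1]; ring
  obtain ⟨r, hr, hball⟩ := Metric.eventually_nhds_iff.1 hcon
  obtain ⟨c, hc1, hc2, hc3⟩ := exists_unit (r := r / 2) (by linarith)
  have hm : 0 < min (r / 2) (‖2 - c‖ - 1) := lt_min (by linarith) (by linarith)
  obtain ⟨w, hw, hwy⟩ := Metric.mem_closure_iff.1 hy _ hm
  have hqz : ‖q - z‖ = 1 := by rw [← dist_eq_norm]; exact hq
  have hwy' : ‖w - (2 * q - z)‖ < min (r / 2) (‖2 - c‖ - 1) := by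
    rw [← dist_eq_norm, dist_comm, ← hy2]; exact hwy
  set p : ℂ := w - (q - z) * c with hp
  have h1 : dist p w = 1 := by
    rw [dist_eq_norm, hp]
    have : w - (q - z) * c - w = -((q - z) * c) := by ring
    rw [this, norm_neg, norm_mul, hqz, hc1, one_mul]
  have h2 : dist p q < r := by
    rw [dist_eq_norm, hp]
    have : w - (q - z) * c - q = (w - (2 * q - z)) + (q - z) * (1 - c) := by ring
    rw [this]
    refine lt_of_le_of_lt (norm_add_le _ _) ?_
    rw [norm_mul, hqz, one_mul]
    have := lt_of_lt_of_le hwy' (min_le_left _ _)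
    linarith
  have h3 : 1 < dist p z := by
    rw [dist_eq_norm, hp]
    have e1 : w - (q - z) * c - z = (q - z) * (2 - c) - (2 * q - z - w) := by ring
    rw [e1]
    have e2 := norm_sub_norm_le ((q - z) * (2 - c)) (2 * q - z - w)
    rw [norm_mul, hqz, one_mul] at e2
    have e3 := lt_of_lt_of_le hwy' (min_le_right _ _)
    rw [← norm_neg, neg_sub] at e3
    linarith
  have h4 : p ∈ U e := hball h2 h3
  exact h.mx.free e p h4 w (subset_closure hw) h1

/-- **The far side.** `φ < 0`: the colour `e` is free, `φ = 0`: `e` is in the palette; at the points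
of the wall `φ = 0` at which `e` is blocked not all points of the side `0 < φ` are in `U e`.  If the
palette of `z` is minimal, every colour of `z` other than `e` has pure points with `0 < φ`
arbitrarily near `z`. -/
theorem side_far (h : Irr U T) {z : ℂ} {e i : Fin k} (hm : MnAt U T z) (he : e ∈ T z)
    (hi : i ∈ T z) (hie : i ≠ e) {φ : ℂ → ℝ} (hφ : Continuous φ)
    (hA : ∀ᶠ w in 𝓝 z, φ w < 0 → Fre U e w) (hC : ∀ᶠ w in 𝓝 z, φ w = 0 → e ∈ T w)
    (hB : ∀ᶠ q in 𝓝 z, φ q = 0 → ¬ Fre U e q → ¬ ∀ᶠ x in 𝓝 q, 0 < φ x → x ∈ U e) :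
    ∃ᶠ w in 𝓝 z, T w = {i} ∧ 0 < φ w := by
  by_contra hcon
  rw [not_frequently] at hcon
  obtain ⟨ε, hε, hball⟩ := Metric.eventually_nhds_iff_ball.1
    (hcon.and (hC.and (hB.and (hA.and (h.nhd z)))))
  -- no point of the ball on the far side has the colour `i`
  have hno : ∀ w ∈ ball z ε, 0 < φ w → i ∉ T w := by
    intro w hw hwz hiw
    have h0 : ∀ᶠ x in 𝓝 w, x ∈ ball z ε := isOpen_ball.mem_nhds hw
    have h1 : ∀ᶠ x in 𝓝 w, x ∈ ball z ε ∧ 0 < φ x :=
      h0.and (hφ.continuousAt.eventually (lt_mem_nhds hwz))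
    obtain ⟨x, hx, hx1, hx2⟩ := ((h.pure w i hiw).and_eventually h1).exists
    exact (hball x hx1).1 ⟨hx, hx2⟩
  have hsing : ∀ {w : ℂ} {j : Fin k}, T w ⊆ {i, j} → i ∉ T w → T w ⊆ {j} := by
    intro w j hw hiw m hm
    rcases hw hm with h1 | h1
    · exact absurd (h1 ▸ hm) hiw
    · exact h1
  have hfree : ∀ {w : ℂ} {j : Fin k}, T w ⊆ {j} → Fre U j w := fun hw =>
    h.mx.free _ _ (h.mem_of_single hw)
  have hwv : ∀ᶠ w in 𝓝 z, w ∈ ball z ε := ball_mem_nhds z hε
  have hne : T z \ {i} ≠ T z := fun hcon => by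
    have h0 := hi
    rw [← hcon] at h0
    exact h0.2 rfl
  obtain ⟨w, hw, hwε, hwg⟩ := ((hm.mn (T z \ {i}) sdiff_subset hne).and_eventually
    (hwv.and (hm.germ ε hε))).exists
  obtain ⟨-, hwJ, -, hwin, hwT⟩ := hball w hwε
  rcases hw with ⟨hwX, hws⟩ | ⟨hwX, hwne, hw2, hws⟩
  · -- a point off the walls
    have hTi : T w ⊆ {i} := by
      intro j hj
      by_contra hji
      exact hws j ⟨hwT hj, hji⟩ (h.off w hwX j hj)
    have hiw : i ∈ T w := by
      obtain ⟨j, hj⟩ := h.ne w
      have : j = i := hTi hj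
      exact this ▸ hj
    rcases lt_trichotomy (φ w) 0 with h1 | h1 | h1
    · exact hws e ⟨he, fun hcon => hie hcon.symm⟩ (h.max e w (Or.inl hwX) (hwin h1))
    · exact hie (hTi (hwJ h1)).symm
    · exact hno w hwε h1 hiw
  · -- a point of the walls with two colours
    have hiw : i ∈ T w := by
      by_contra hcon
      exact hws fun m hm => ⟨hwT hm, fun h1 => hcon (h1 ▸ hm)⟩
    obtain ⟨j, hij, hTw⟩ : ∃ j, i ≠ j ∧ T w = {i, j} := by
      obtain ⟨p, q, hpq, hT⟩ := Set.ncard_eq_two.1 hw2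
      rw [hT] at hiw
      rcases hiw with rfl | h1
      · exact ⟨q, hpq, hT⟩
      · have h1' : i = q := h1
        exact ⟨p, h1' ▸ hpq.symm, by rw [hT, h1', Set.pair_comm]⟩
    obtain ⟨Q, hQc, hQb, hQT, hQf⟩ := hwg hwne hwX hw2
    rw [hTw] at hQT
    obtain ⟨q, hqQ, hqe⟩ := hQf e
    obtain ⟨-, hqJ, hqB, hqin, -⟩ := hball q (hQb hqQ)
    rcases lt_trichotomy (φ q) 0 with h1 | h1 | h1
    · exact hqe (hqin h1)
    · -- on the wall
      have heq : e ∈ T q := hqJ h1
      have hej : e = j := by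
        rcases hQT q hqQ heq with h2 | h2
        · exact absurd h2.symm hie
        · exact h2
      subst hej
      refine hqB h1 hqe ?_
      have h2 : ∀ᶠ x in 𝓝 q, x ∈ ball z ε := isOpen_ball.mem_nhds (hQb hqQ)
      filter_upwards [h2, h.nhd q] with x hx1 hx2 hx3
      exact h.mem_of_single (hsing (hx2.trans (hQT q hqQ)) (hno x hx1 hx3))
    · -- on the far side
      have hiq : i ∉ T q := hno q (hQb hqQ) h1
      have hqj : T q ⊆ {j} := hsing (hQT q hqQ) hiq
      have hej : e ≠ j := by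
        rintro rfl
        exact hqe (hfree hqj)
      -- the set `Q` does not meet the wall
      have hQo : ∀ x ∈ Q, φ x ≠ 0 := by
        intro x hx hx1
        have h2 : e ∈ T x := (hball x (hQb hx)).2.1 hx1
        rcases hQT x hx h2 with h3 | h3
        · exact hie h3.symm
        · exact hej h3
      have hQout : ∀ x ∈ Q, 0 < φ x := by
        intro x hx
        by_contra hlt
        have h2 : φ x ≤ 0 := not_lt.1 hlt
        have h3 : (0 : ℝ) ∈ φ '' Q := hQc.intermediate_value hx hqQ hφ.continuousOn ⟨h2, h1.le⟩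
        obtain ⟨x', hx', h4⟩ := h3
        exact hQo x' hx' h4
      obtain ⟨q', hq'Q, hq'j⟩ := hQf j
      exact hq'j (hfree (hsing (hQT q' hq'Q) (hno q' (hQb hq'Q) (hQout q' hq'Q))))

/-- **Run lemma, second part.** If moreover the palette of `v` is minimal, then every
colour of `v` other than `e` has pure points outside the disc about `z` arbitrarily near `v`. -/
theorem run_far (h : Irr U T) {z v : ℂ} {e : Fin k} (hv : dist v z = 1)
    (hJ : ∀ᶠ q in 𝓝[sphere z 1] v, e ∈ T q) (hz : e ∉ Pal U z)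
    (hm : MnAt U T v) {i : Fin k} (hi : i ∈ T v) (hie : i ≠ e) :
    ∃ᶠ w in 𝓝 v, T w = {i} ∧ 1 < dist w z := by
  have hev : e ∈ T v := hJ.self_of_nhdsWithin hv
  have hJ' : ∀ᶠ q in 𝓝 v, q ∈ sphere z (1 : ℝ) → e ∈ T q := eventually_nhdsWithin_iff.1 hJ
  have hin := run_inside h hv (hJ.mono fun q hq => h.sub q hq) hz
  refine (side_far h hm hev hi hie (φ := fun w => dist w z - 1) (by fun_prop) ?_ ?_ ?_).mono ?_
  · filter_upwards [hin] with w hw h1
    exact hw (by linarith)
  · filter_upwards [hJ'] with w hw h1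
    exact hw (by rw [mem_sphere]; linarith)
  · filter_upwards [hJ'.eventually_nhds] with q hq h1 hb hcon
    refine out_freq h (by linarith : dist q z = 1) ?_ hz hb
      (hcon.mono fun x hx h2 => hx (by linarith))
    exact eventually_nhdsWithin_iff.2 (hq.mono fun q' h1 h2 => h.sub _ (h1 h2))
  · rintro w ⟨h1, h2⟩
    exact ⟨h1, by linarith⟩

end Vale.Agent.P032.H642
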