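import Vale.Agent.P032X.H642.Ends4

/-!
# P032: no harmless special ends

`z` a centre with the exact pairs `ab`, `cd`, missing colours `e`, `f`; every point of the closures of
the exact arcs which is not inside an arc is good: `T y ⊆ P ∪ {e, f}` and `P` with one of the colours
`e`, `f` of `T y` (the mark) is a face at `y`.  The word of `S(z)` satisfies `PreW` (no ties), and the
two word facts `L1s`, `L2s` hold.  Then no such point carries both `e` and `f` (`no_special`).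
-/

open Set Filter Topology Metric

noncomputable section

namespace Vale.Agent.P032.H642

open Vale.Agent.P032.Six Vale.Agent.P032.S5.H767 Vale.Agent.P032.S5.H349 Vale.Agent.P032.H350

variable {U : Fin 6 → Set ℂ} {T : ℂ → Set (Fin 6)} {z v q : ℂ} {a b c d e f g p : Fin 6}

/-- a good point of type `{a, b}` with the mark `g` -/
def Gd (T : ℂ → Set (Fin 6)) (a b g p : Fin 6) (y : ℂ) : Prop :=
  g ∈ T y ∧ T y ⊆ {a, b, g, p} ∧ Fc T y {a, b, g}

/-- the ends of the exact arcs are good -/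
def GdE (T : ℂ → Set (Fin 6)) (z : ℂ) (a b e f : Fin 6) : Prop :=
  ∀ y ∈ closure (Ex T z {a, b}), y ∉ Ex T z {a, b} → Gd T a b e f y ∨ Gd T a b f e y

/-- no exact `ef`-arcs at the ends with both missing colours -/
def NvE (T : ℂ → Set (Fin 6)) (z : ℂ) (a b e f : Fin 6) : Prop :=
  ∀ y ∈ closure (Ex T z {a, b}), e ∈ T y → f ∈ T y → ∀ x, dist x y = 1 → T x ≠ {e, f}

/-- **L1**: there is a clean end with the mark `f` -/
def L1s (T : ℂ → Set (Fin 6)) (z : ℂ) (a b c d e f : Fin 6) : Prop :=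
  ∃ y, (y ∈ closure (Ex T z {a, b}) ∨ y ∈ closure (Ex T z {c, d})) ∧ f ∈ T y ∧ e ∉ T y

/-- **L2**: not at most one clean end of each of the types `abe`, `cdf` -/
def L2s (T : ℂ → Set (Fin 6)) (z : ℂ) (a b c d e f : Fin 6) : Prop :=
  ∀ V Q : ℂ, (∀ y ∈ closure (Ex T z {a, b}), e ∈ T y → f ∉ T y → y = V) →
    (∀ y ∈ closure (Ex T z {c, d}), f ∈ T y → e ∉ T y → y = Q) → False

theorem gp_of (hnd : [a, b, c, d, g, p].Nodup) (hz : T z = {a, b, c, d})
    (hv : v ∈ closure (Ex T z {a, b})) (hq : q ∈ closure (Ex T z {c, d})) (h1 : Gd T a b g p v)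
    (h2 : Gd T c d p g q) : GP T z v q a b c d g p where
  nd := hnd
  pal := hz
  hv := hv
  hq := hq
  gv := h1.1
  pq := h2.1
  sv := h1.2.1
  sq := h2.2.1.trans (by intro i; simp only [mem_insert_iff, mem_singleton_iff]; tauto)
  fv := h1.2.2
  fq := h2.2.2

/-- three of four -/
theorem three_of_four {S : ℂ → Prop} {q₁ q₂ q₃ q₄ : ℂ}
    (hne : q₁ ≠ q₂ ∧ q₁ ≠ q₃ ∧ q₁ ≠ q₄ ∧ q₂ ≠ q₃ ∧ q₂ ≠ q₄ ∧ q₃ ≠ q₄)
    (hS : ∀ q q', (q = q₁ ∨ q = q₂ ∨ q = q₃ ∨ q = q₄) → (q' = q₁ ∨ q' = q₂ ∨ q' = q₃ ∨ q' = q₄) →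
      ¬ S q → ¬ S q' → q = q') :
    ∃ r₁ r₂ r₃ : ℂ, (r₁ ≠ r₂ ∧ r₁ ≠ r₃ ∧ r₂ ≠ r₃) ∧
      ∀ q, (q = r₁ ∨ q = r₂ ∨ q = r₃) → (q = q₁ ∨ q = q₂ ∨ q = q₃ ∨ q = q₄) ∧ S q := by
  obtain ⟨h12, h13, h14, h23, h24, h34⟩ := hne
  by_cases s1 : S q₁
  · by_cases s2 : S q₂
    · by_cases s3 : S q₃
      · exact ⟨q₁, q₂, q₃, ⟨h12, h13, h23⟩, by rintro q (rfl | rfl | rfl) <;> simp [*]⟩
      · have s4 : S q₄ := by
          by_contra h
          exact h34 (hS _ _ (by simp) (by simp) s3 h)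
        exact ⟨q₁, q₂, q₄, ⟨h12, h14, h24⟩, by rintro q (rfl | rfl | rfl) <;> simp [*]⟩
    · have s3 : S q₃ := by
        by_contra h
        exact h23 (hS _ _ (by simp) (by simp) s2 h)
      have s4 : S q₄ := by
        by_contra h
        exact h24 (hS _ _ (by simp) (by simp) s2 h)
      exact ⟨q₁, q₃, q₄, ⟨h13, h14, h34⟩, by rintro q (rfl | rfl | rfl) <;> simp [*]⟩
  · have s2 : S q₂ := by
      by_contra h
      exact h12 (hS _ _ (by simp) (by simp) s1 h)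
    have s3 : S q₃ := by
      by_contra h
      exact h13 (hS _ _ (by simp) (by simp) s1 h)
    have s4 : S q₄ := by
      by_contra h
      exact h14 (hS _ _ (by simp) (by simp) s1 h)
    exact ⟨q₂, q₃, q₄, ⟨h23, h24, h34⟩, by rintro q (rfl | rfl | rfl) <;> simp [*]⟩

/-- **No special end of type `ab` with the mark `e`** -/
theorem special_false (h : Irr U T) (hmn : Mn4 U T) (h4 : ∀ x, (T x).ncard ≤ 4)
    (C : Ctr U T z a b c d e f) (R : PreW (Xs T z a b c d e f)) (hab : GdE T z a b e f)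
    (hcd : GdE T z c d e f) (hnv : ∀ x, dist x v = 1 → T x ≠ {e, f}) (L1 : L1s T z a b c d e f)
    (L2 : L2s T z a b c d e f) (hv : v ∈ closure (Ex T z {a, b})) (hG : Gd T a b e f v)
    (hf : f ∈ T v) : False := by
  obtain ⟨⟨ab, ac, ad, ae, af⟩, ⟨bc, bd, be, bf⟩, ⟨cd, ce, cf⟩, ⟨de, df⟩, ef⟩ := C.sep
  have nd := C.nd
  have nd' : [a, b, c, d, f, e].Nodup := by
    have : [a, b, c, d, f, e].Perm [a, b, c, d, e, f] := by
      refine List.Perm.cons _ (List.Perm.cons _ (List.Perm.cons _ (List.Perm.cons _ ?_)))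
      exact List.Perm.swap _ _ _
    exact this.nodup_iff.2 nd
  -- complementary ends of `v`
  have hcl : ∀ {q}, (q ∈ closure (Ex T z {c, d}) ∧ Gd T c d f e q) → GP T z v q a b c d e f :=
    fun hq => gp_of nd C.pal hv hq.1 hG hq.2
  obtain ⟨q₁, q₂, q₃, q₄, hne, hq⟩ := ends4 C R hv hG.1 hf
  have hqc : ∀ q, (q = q₁ ∨ q = q₂ ∨ q = q₃ ∨ q = q₄) →
      q ∈ closure (Ex T z {c, d}) ∧ (Gd T c d e f q ∨ Gd T c d f e q) := by
    intro q hq'
    have h1 := hq q hq'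
    exact ⟨closure_of_st h1.1, hcd q (closure_of_st h1.1) h1.2⟩
  obtain ⟨r₁, r₂, r₃, ⟨n12, n13, n23⟩, hr⟩ := three_of_four (S := fun q => Gd T c d e f q) hne (by
    intro q q' hq1 hq2 s1 s2
    obtain ⟨k1, k2⟩ := hqc q hq1
    obtain ⟨k3, k5⟩ := hqc q' hq2
    exact GP.count_special h hmn h4 (hcl ⟨k1, k2.resolve_left s1⟩) (hcl ⟨k3, k5.resolve_left s2⟩)
      hf hnv (Or.inr (Or.inl (hq q hq1).1)))
  have hr' : ∀ q, (q = r₁ ∨ q = r₂ ∨ q = r₃) → q ∈ closure (Ex T z {c, d}) ∧ Gd T c d e f q :=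
    fun q h1 => ⟨(hqc q (hr q h1).1).1, (hr q h1).2⟩
  obtain ⟨y0, hy0, hfy, hey⟩ := L1
  rcases hy0 with hy0 | hy0
  · -- a clean end of type `abf`
    have hy0E : y0 ∉ Ex T z {a, b} := by
      intro h1
      rw [ex_self h1] at hfy
      rcases hfy with h2 | h2
      exacts [af h2.symm, bf h2.symm]
    have hGy : Gd T a b f e y0 := by
      rcases hab y0 hy0 hy0E with h1 | h1
      · exact absurd h1.1 hey
      · exact h1
    have G : ∀ q, (q = r₁ ∨ q = r₂ ∨ q = r₃) → GP T z y0 q a b c d f e := fun q h1 =>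
      gp_of nd' C.pal hy0 (hr' q h1).1 hGy (hr' q h1).2
    rcases GP.count_two h hmn h4 (G r₁ (by simp)) (G r₂ (by simp)) (G r₃ (by simp))
      (fun h1 => absurd h1 hey) (Or.inl hey) (Or.inl hey) with h1 | h1 | h1
    exacts [n12 h1, n13 h1, n23 h1]
  · -- a clean end of type `cdf`
    have clean : ∀ y ∈ closure (Ex T z {c, d}), f ∈ T y → e ∉ T y → Gd T c d f e y := by
      intro y hy k1 k2
      have hyE : y ∉ Ex T z {c, d} := by
        intro h1
        rw [ex_self h1] at k1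
        rcases k1 with h2 | h2
        exacts [cf h2.symm, df h2.symm]
      rcases hcd y hy hyE with h1 | h1
      · exact absurd h1.1 k2
      · exact h1
    have clean' : ∀ y ∈ closure (Ex T z {a, b}), e ∈ T y → f ∉ T y → Gd T a b e f y := by
      intro y hy k1 k2
      have hyE : y ∉ Ex T z {a, b} := by
        intro h1
        rw [ex_self h1] at k1
        rcases k1 with h2 | h2
        exacts [ae h2.symm, be h2.symm]
      rcases hab y hy hyE with h1 | h1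
      · exact h1
      · exact absurd h1.1 k2
    have G0 : ∀ y ∈ closure (Ex T z {a, b}), Gd T a b e f y → GP T z y0 y c d a b f e :=
      fun y hy hGy => (gp_of nd C.pal hy hy0 hGy (clean y0 hy0 hfy hey)).swap
    have uniq : ∀ V, V ∈ closure (Ex T z {a, b}) → e ∈ T V → f ∉ T V →
        ∀ y ∈ closure (Ex T z {a, b}), e ∈ T y → f ∉ T y → y = V := by
      intro V hV1 hV2 hV3 y hy1 hy2 hy3
      rcases GP.count_two h hmn h4 (G0 y hy1 (clean' y hy1 hy2 hy3))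
        (G0 V hV1 (clean' V hV1 hV2 hV3)) (G0 v hv hG) (fun h1 => absurd h1 hey) (Or.inl hey)
        (Or.inl hey) with h1 | h1 | h1
      · exact h1
      · rw [h1] at hy3; exact absurd hf hy3
      · rw [h1] at hV3; exact absurd hf hV3
    have uniq' : ∀ y ∈ closure (Ex T z {c, d}), f ∈ T y → e ∉ T y → y = y0 := by
      intro y hy1 hy2 hy3
      exact GP.count_special h hmn h4 (hcl ⟨hy1, clean y hy1 hy2 hy3⟩)
        (hcl ⟨hy0, clean y0 hy0 hfy hey⟩) hf hnv (Or.inl hy3)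
    by_cases hV : ∃ V, V ∈ closure (Ex T z {a, b}) ∧ e ∈ T V ∧ f ∉ T V
    · obtain ⟨V, hV1, hV2, hV3⟩ := hV
      exact L2 V y0 (uniq V hV1 hV2 hV3) uniq'
    · refine L2 v y0 (fun y hy1 hy2 hy3 => absurd ⟨y, hy1, hy2, hy3⟩ hV) uniq'

/-! ### the word facts -/

/-- word fact L1 -/
def W1 : Prop := ∀ X : Fin 4 → Set ℝ, PreW X → ∃ u, u ∈ X 1 ∧ u ∉ X 0 ∧ (u ∈ X 2 ∨ u ∈ X 3)

/-- word fact L2 -/
def W2 : Prop := ∀ X : Fin 4 → Set ℝ, PreW X → X 2 ⊆ closure (interior (X 2)) →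
  X 3 ⊆ closure (interior (X 3)) → ∀ V Q : ℝ,
  (∀ u, u ∈ X 0 → u ∈ X 2 → u ∉ X 1 → ∃ n : ℤ, u = V + 6 * n) →
  (∀ u, u ∈ X 1 → u ∈ X 3 → u ∉ X 0 → ∃ n : ℤ, u = Q + 6 * n) → False

theorem l1s_of (w1 : W1) (R : PreW (Xs T z a b c d e f)) : L1s T z a b c d e f := by
  obtain ⟨u, h1, h0, h2⟩ := w1 _ R
  refine ⟨pt z u, h2, h1.2, fun h3 => h0 ⟨dist_pt z u, h3⟩⟩

/-- the pair letters are closures of open sets -/
theorem ea_reg (P : Set (Fin 6)) :
    {u | pt z u ∈ closure (Ex T z P)} ⊆ closure (interior {u | pt z u ∈ closure (Ex T z P)}) := by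
  intro u hu
  rw [Metric.mem_closure_iff]
  intro ε hε
  obtain ⟨w, hw, hwE⟩ := ea_near hε hu
  refine ⟨w, ?_, by rw [dist_comm, Real.dist_eq]; exact hw⟩
  refine interior_maximal (fun s hs => ?_) (ea_open T z P) hwE
  exact subset_closure hs

theorem l2s_of (w2 : W2) (R : PreW (Xs T z a b c d e f)) : L2s T z a b c d e f := by
  intro V Q hV hQ
  -- the angles
  have key : ∀ (W : ℂ) (P : Set (Fin 6)) (i j : Fin 6),
      (∀ y ∈ closure (Ex T z P), i ∈ T y → j ∉ T y → y = W) →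
      ∃ A : ℝ, ∀ u : ℝ, pt z u ∈ closure (Ex T z P) → i ∈ T (pt z u) → j ∉ T (pt z u) →
        ∃ n : ℤ, u = A + 6 * n := by
    intro W P i j hW
    by_cases hWz : dist W z = 1
    · obtain ⟨A, rfl⟩ := exists_pt hWz
      exact ⟨A, fun u h1 h2 h3 => pt_eq (hW _ h1 h2 h3)⟩
    · refine ⟨0, fun u h1 h2 h3 => absurd ?_ hWz⟩
      rw [← hW _ h1 h2 h3]; exact dist_pt z u
  obtain ⟨A, hA⟩ := key V {a, b} e f hV
  obtain ⟨B, hB⟩ := key Q {c, d} f e hQ
  refine w2 _ R (ea_reg {a, b}) (ea_reg {c, d}) A B (fun u h0 h2 h1 => ?_) fun u h1 h3 h0 => ?_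
  · exact hA u h2 h0.2 fun h5 => h1 ⟨dist_pt z u, h5⟩
  · exact hB u h3 h1.2 fun h5 => h0 ⟨dist_pt z u, h5⟩

/-! ### harmless points -/

/-- a harmless point of type `ab`: at most three colours, or `abef` and one of the colours `e`, `f` is
in all palettes of `S(y)` inside `T y` -/
def Hm (T : ℂ → Set (Fin 6)) (a b e f : Fin 6) (y : ℂ) : Prop :=
  (T y).ncard ≤ 3 ∨ T y = {a, b, e, f} ∧ ((∀ w, dist w y = 1 → T w ⊆ T y → f ∈ T w) ∨
    ∀ w, dist w y = 1 → T w ⊆ T y → e ∈ T w)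

theorem gd_of_one (haf : a ≠ f) (hbf : b ≠ f) (hef : e ≠ f) {y : ℂ} (hT : T y = {a, b, e, f})
    (one : ∀ w, dist w y = 1 → T w ⊆ T y → f ∈ T w) : Gd T a b e f y := by
  refine ⟨by rw [hT]; simp, by rw [hT], fun w hw hsub => ?_⟩
  have h1 : f ∈ T w := one w hw (hsub.trans (by
    rw [hT]; intro i; simp only [mem_insert_iff, mem_singleton_iff]; tauto))
  rcases hsub h1 with h2 | h2 | h2
  exacts [haf h2.symm, hbf h2.symm, hef h2.symm]

/-- a clean end -/
theorem gd_of_clean (h : Irr U T) (C : Ctr U T z a b c d e f) (hcd : (Ex T z {c, d}).Nonempty)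
    {y : ℂ} (hy : y ∈ closure (Ex T z {a, b})) (hyE : y ∉ Ex T z {a, b})
    (h3 : (T y).ncard ≤ 3) : Gd T a b e f y ∨ Gd T a b f e y := by
  obtain ⟨⟨ab, ac, ad, ae, af⟩, ⟨bc, bd, be, bf⟩, ⟨cd, ce, cf⟩, ⟨de, df⟩, ef⟩ := C.sep
  have hyz := dist_of_closure hy
  have hsub := sub_of_closure h hy
  have hPz : ({a, b} : Set (Fin 6)) ⊆ T z := by
    rw [C.pal]; rintro i (rfl | rfl) <;> simp
  -- a third colour
  obtain ⟨g, hg, hgab⟩ : ∃ g ∈ T y, g ∉ ({a, b} : Set (Fin 6)) := by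
    by_contra hcon
    push Not at hcon
    exact hyE ⟨hyz, h.pair_open (Set.ncard_pair ab) hPz hcon⟩
  have hT : T y = insert g {a, b} := by
    symm
    refine Set.eq_of_subset_of_ncard_le (insert_subset hg hsub) ?_ (Set.toFinite _)
    rw [Set.ncard_insert_of_notMem hgab (Set.toFinite _), Set.ncard_pair ab]
    exact h3
  -- not in `T z`
  obtain ⟨q0, hq0⟩ := hcd
  obtain ⟨q, -, hqz, hqy, hqy2, hqJ⟩ := exists_generic (y := y) hq0.1 hq0.2
  have hq : q ∈ Ex T z {c, d} := ⟨hqz, hqJ⟩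
  have hqT : T q = {c, d} := ex_self hq
  have key : ∀ x, x ∈ ({c, d} : Set (Fin 6)) → T z ⊆ insert x (T y) → False := by
    intro x hx hz'
    exact h.third_notMem hyz h3 hz' hq.1 (h.sub _ (by rw [hqT]; exact hx)) hqy hqy2
  have hgz : g ∉ T z := by
    intro hgz
    rw [C.pal] at hgz
    rcases hgz with h1 | h1 | h1 | h1
    · exact hgab (Or.inl h1)
    · exact hgab (Or.inr h1)
    · refine key d (by simp) ?_
      rw [C.pal, hT, h1]
      rintro i (rfl | rfl | rfl | rfl) <;> simp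
    · refine key c (by simp) ?_
      rw [C.pal, hT, h1]
      rintro i (rfl | rfl | rfl | rfl) <;> simp
  have hf3 := fc_three h h3
  rcases C.miss hgz with h1 | h1
  · left
    refine ⟨by rw [hT, h1]; simp, ?_, hf3.mono ?_⟩
    · rw [hT, h1]; rintro i (rfl | rfl | rfl) <;> simp
    · rw [hT, h1]; rintro i (rfl | rfl | rfl) <;> simp
  · right
    refine ⟨by rw [hT, h1]; simp, ?_, hf3.mono ?_⟩
    · rw [hT, h1]; rintro i (rfl | rfl | rfl) <;> simp
    · rw [hT, h1]; rintro i (rfl | rfl | rfl) <;> simp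

theorem gdE_of (h : Irr U T) (C : Ctr U T z a b c d e f) (hcd : (Ex T z {c, d}).Nonempty)
    (hH : ∀ y ∈ closure (Ex T z {a, b}), Hm T a b e f y) : GdE T z a b e f := by
  obtain ⟨⟨ab, ac, ad, ae, af⟩, ⟨bc, bd, be, bf⟩, ⟨cd, ce, cf⟩, ⟨de, df⟩, ef⟩ := C.sep
  intro y hy hyE
  rcases hH y hy with h3 | ⟨hT, h1 | h1⟩
  · exact gd_of_clean h C hcd hy hyE h3
  · exact Or.inl (gd_of_one af bf ef hT h1)
  · refine Or.inr (gd_of_one ae be ef.symm ?_ h1)
    rw [hT]; ext i; simp only [mem_insert_iff, mem_singleton_iff]; tauto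

/-- exchange of the two missing colours -/
theorem ctr_swapEF (C : Ctr U T z a b c d e f) : Ctr U T z a b c d f e where
  irr := C.irr
  pal := C.pal
  nd := by
    have : [a, b, c, d, f, e].Perm [a, b, c, d, e, f] := by
      refine List.Perm.cons _ (List.Perm.cons _ (List.Perm.cons _ (List.Perm.cons _ ?_)))
      exact List.Perm.swap _ _ _
    exact this.nodup_iff.2 C.nd
  pairs := C.pairs

/-- **No special ends**: a two-pair centre whose ends are harmless and whose word has no ties has only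
clean ends. -/
theorem no_special (h : Irr U T) (hmn : Mn4 U T) (h4 : ∀ x, (T x).ncard ≤ 4) (w1 : W1) (w2 : W2)
    (hR : ∀ a b c d e f, Ctr U T z a b c d e f → PreW (Xs T z a b c d e f))
    (C : Ctr U T z a b c d e f) (eab : (Ex T z {a, b}).Nonempty) (ecd : (Ex T z {c, d}).Nonempty)
    (hab : ∀ y ∈ closure (Ex T z {a, b}), Hm T a b e f y)
    (hcd : ∀ y ∈ closure (Ex T z {c, d}), Hm T c d e f y)
    (nab : NvE T z a b e f) (ncd : NvE T z c d e f) :
    ∀ y, (y ∈ closure (Ex T z {a, b}) ∨ y ∈ closure (Ex T z {c, d})) → (T y).ncard ≤ 3 := by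
  -- one type
  have main : ∀ {a b c d e f : Fin 6}, Ctr U T z a b c d e f → (Ex T z {a, b}).Nonempty →
      (Ex T z {c, d}).Nonempty → (∀ y ∈ closure (Ex T z {a, b}), Hm T a b e f y) →
      (∀ y ∈ closure (Ex T z {c, d}), Hm T c d e f y) → NvE T z a b e f →
      ∀ y ∈ closure (Ex T z {a, b}), (T y).ncard ≤ 3 := by
    intro a b c d e f C eab ecd hab hcd nab y hy
    by_contra hcon
    obtain ⟨⟨ab, ac, ad, ae, af⟩, ⟨bc, bd, be, bf⟩, ⟨cd, ce, cf⟩, ⟨de, df⟩, ef⟩ := C.sep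
    obtain ⟨hT, h1⟩ := (hab y hy).resolve_left hcon
    have he : e ∈ T y := by rw [hT]; simp
    have hf : f ∈ T y := by rw [hT]; simp
    have g1 := gdE_of h C ecd hab
    have g2 := gdE_of h C.swapAC eab hcd
    have C' := ctr_swapEF C
    have sw : ∀ {a b e f : Fin 6}, GdE T z a b e f → GdE T z a b f e :=
      fun hg y hy hyE => (hg y hy hyE).symm
    rcases h1 with h1 | h1
    · exact special_false h hmn h4 C (hR _ _ _ _ _ _ C) g1 g2 (nab y hy he hf)
        (l1s_of w1 (hR _ _ _ _ _ _ C)) (l2s_of w2 (hR _ _ _ _ _ _ C)) hy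
        (gd_of_one af bf ef hT h1) hf
    · refine special_false h hmn h4 C' (hR _ _ _ _ _ _ C') (sw g1) (sw g2) (fun x hx hTx => ?_)
        (l1s_of w1 (hR _ _ _ _ _ _ C')) (l2s_of w2 (hR _ _ _ _ _ _ C')) hy
        (gd_of_one ae be ef.symm ?_ h1) he
      · exact nab y hy he hf x hx (hTx.trans (Set.pair_comm _ _))
      · rw [hT]; ext i; simp only [mem_insert_iff, mem_singleton_iff]; tauto
  rintro y (hy | hy)
  · exact main C eab ecd hab hcd nab y hy
  · exact main C.swapAC ecd eab hcd hab ncd y hy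

end Vale.Agent.P032.H642
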