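import Vale.Agent.P032X.H350.Surg
import Vale.Agent.P032X.S5.H349.Bridge
import Vale.Agent.P032X.H642.Rh

/-!
# P032: four ends of the other pair

At a special end of `S(z)` (an end of an exact `ab`-arc with both missing colours) the two angles at
distance one are in the closure of the exact `cd`-arcs (`nbr_three`).  So there are two different exact
`cd`-arcs and four different points of `S(z)` at which exact `cd`-arcs start (`ends4`).
-/

open Set Filter Topology Metric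

noncomputable section

namespace Vale.Agent.P032.H642

open Vale.Agent.P032.Six Vale.Agent.P032.S5.H767 Vale.Agent.P032.S5.H349 Vale.Agent.P032.H350

variable {U : Fin 6 → Set ℂ} {T : ℂ → Set (Fin 6)} {z : ℂ} {a b c d e f : Fin 6}
  {X : Fin 4 → Set ℝ}

/-- the angle after a triple letter -/
theorem nbr_three (R : PreW X) {u : ℝ} (h0 : u ∈ X 0) (h1 : u ∈ X 1) (h2 : u ∈ X 2) :
    u + 1 ∈ X 3 := by
  obtain ⟨l, hl⟩ := R.cover (u + 1)
  have key : ∀ l, u ∈ X l → u + 1 ∈ X l → (∃ m, m ≠ l ∧ u ∈ X m ∧ u + 1 ∈ X m) → False := by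
    rintro l a1 a2 ⟨m, hm, a3, a4⟩
    exact hm (R.swap u m l a3 a4 a1 a2)
  have h3 : ∀ l, l ≠ 3 → u ∈ X l := by
    intro l hl
    fin_cases l
    · exact h0
    · exact h1
    · exact h2
    · exact absurd rfl hl
  by_cases hl3 : l = 3
  · rw [← hl3]; exact hl
  obtain ⟨m, hm, hmu⟩ := R.own' u l (h3 l hl3) hl
  by_cases hm3 : m = 3
  · rw [← hm3]; exact hmu
  · exact (key l (h3 l hl3) hl ⟨m, hm, h3 m hm3, hmu⟩).elim

/-- the angle before a triple letter -/
theorem nbr_three' (R : PreW X) {u : ℝ} (h0 : u + 1 ∈ X 0) (h1 : u + 1 ∈ X 1)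
    (h2 : u + 1 ∈ X 2) : u ∈ X 3 := by
  obtain ⟨l, hl⟩ := R.cover u
  have h3 : ∀ l, l ≠ 3 → u + 1 ∈ X l := by
    intro l hl
    fin_cases l
    · exact h0
    · exact h1
    · exact h2
    · exact absurd rfl hl
  by_cases hl3 : l = 3
  · rw [← hl3]; exact hl
  obtain ⟨m, hm, hmu⟩ := R.own u l hl (h3 l hl3)
  by_cases hm3 : m = 3
  · rw [← hm3]; exact hmu
  · exact absurd (R.swap u m l hmu (h3 m hm3) hl (h3 l hl3)) hm

/-- the angles of the exact arcs -/
def Ea (T : ℂ → Set (Fin 6)) (z : ℂ) (P : Set (Fin 6)) : Set ℝ := {u | pt z u ∈ Ex T z P}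

theorem ea_open (T : ℂ → Set (Fin 6)) (z : ℂ) (P : Set (Fin 6)) : IsOpen (Ea T z P) := by
  rw [isOpen_iff_mem_nhds]
  intro u hu
  have h1 : ∀ᶠ q in 𝓝[sphere z 1] (pt z u), q ∈ Ex T z P := ex_open hu
  have h2 : Tendsto (pt z) (𝓝 u) (𝓝[sphere z 1] (pt z u)) := by
    refine tendsto_nhdsWithin_iff.2 ⟨(continuous_pt z).tendsto u, Eventually.of_forall fun s => ?_⟩
    exact dist_pt z s
  exact h2.eventually h1

/-- a real end of an exact arc, with the arc on the left -/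
theorem right_end (T : ℂ → Set (Fin 6)) (z : ℂ) (P : Set (Fin 6))
    (hE : ∀ u, u ∈ Ea T z P → u + 1 ∉ Ea T z P) {w : ℝ} (hw : w ∈ Ea T z P) :
    ∃ r, w < r ∧ r ≤ w + 1 ∧ r ∉ Ea T z P ∧ ∀ t ∈ Ico w r, t ∈ Ea T z P := by
  set F : Set ℝ := (Ea T z P)ᶜ ∩ Ici w with hF
  have hcl : IsClosed F := (ea_open T z P).isClosed_compl.inter isClosed_Ici
  have hne : F.Nonempty := ⟨w + 1, hE w hw, by show w ≤ w + 1; linarith⟩
  have hbd : BddBelow F := ⟨w, fun t ht => ht.2⟩
  have hm := hcl.csInf_mem hne hbd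
  refine ⟨sInf F, ?_, csInf_le hbd ⟨hE w hw, by show w ≤ w + 1; linarith⟩, hm.1, fun t ht => ?_⟩
  · refine lt_of_le_of_ne hm.2 fun h1 => hm.1 ?_
    rw [← h1]; exact hw
  · by_contra hcon
    have : sInf F ≤ t := csInf_le hbd ⟨hcon, ht.1⟩
    linarith [ht.2]

/-- a real end of an exact arc, with the arc on the right -/
theorem left_end (T : ℂ → Set (Fin 6)) (z : ℂ) (P : Set (Fin 6))
    (hE : ∀ u, u ∈ Ea T z P → u + 1 ∉ Ea T z P) {w : ℝ} (hw : w ∈ Ea T z P) :
    ∃ l, l < w ∧ w - 1 ≤ l ∧ l ∉ Ea T z P ∧ ∀ t ∈ Ioc l w, t ∈ Ea T z P := by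
  set F : Set ℝ := (Ea T z P)ᶜ ∩ Iic w with hF
  have hw1 : w - 1 ∉ Ea T z P := fun h1 => hE _ h1 (by rw [sub_add_cancel]; exact hw)
  have hcl : IsClosed F := (ea_open T z P).isClosed_compl.inter isClosed_Iic
  have hne : F.Nonempty := ⟨w - 1, hw1, by show w - 1 ≤ w; linarith⟩
  have hbd : BddAbove F := ⟨w, fun t ht => ht.2⟩
  have hm := hcl.csSup_mem hne hbd
  refine ⟨sSup F, ?_, le_csSup hbd ⟨hw1, by show w - 1 ≤ w; linarith⟩, hm.1, fun t ht => ?_⟩
  · refine lt_of_le_of_ne hm.2 fun h1 => hm.1 ?_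
    rw [h1]; exact hw
  · by_contra hcon
    have : t ≤ sSup F := le_csSup hbd ⟨hcon, ht.2⟩
    linarith [ht.1]

/-- the arc starts at its right end -/
theorem st_right {P : Set (Fin 6)} {w r : ℝ} (hwr : w < r)
    (h : ∀ t ∈ Ico w r, t ∈ Ea T z P) : St T z (pt z r) P := by
  have hpi := Real.pi_pos
  refine ⟨1, (r - w) * (Real.pi / 3), Or.inl rfl, by
    have : 0 < r - w := by linarith
    positivity, fun t ht => ?_⟩
  rw [pt_rot]
  refine h _ ⟨?_, ?_⟩
  · have h1 : t * (3 / Real.pi) < r - w := by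
      have := mul_lt_mul_of_pos_right ht.2 (show 0 < 3 / Real.pi by positivity)
      have e1 : (r - w) * (Real.pi / 3) * (3 / Real.pi) = r - w := by field_simp
      rw [e1] at this; exact this
    linarith
  · have : 0 < t * (3 / Real.pi) := mul_pos ht.1 (by positivity)
    linarith

/-- the arc starts at its left end -/
theorem st_left {P : Set (Fin 6)} {w l : ℝ} (hwl : l < w)
    (h : ∀ t ∈ Ioc l w, t ∈ Ea T z P) : St T z (pt z l) P := by
  have hpi := Real.pi_pos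
  refine ⟨-1, (w - l) * (Real.pi / 3), Or.inr rfl, by
    have : 0 < w - l := by linarith
    positivity, fun t ht => ?_⟩
  rw [pt_rot]
  refine h _ ⟨?_, ?_⟩
  · have : 0 < t * (3 / Real.pi) := mul_pos ht.1 (by positivity)
    linarith
  · have h1 : t * (3 / Real.pi) < w - l := by
      have := mul_lt_mul_of_pos_right ht.2 (show 0 < 3 / Real.pi by positivity)
      have e1 : (w - l) * (Real.pi / 3) * (3 / Real.pi) = w - l := by field_simp
      rw [e1] at this; exact this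
    linarith

/-- a started arc accumulates -/
theorem closure_of_st {v : ℂ} {P : Set (Fin 6)} (h : St T z v P) : v ∈ closure (Ex T z P) := by
  obtain ⟨o, ε, -, hε, h1⟩ := h
  have hc : Continuous fun t : ℝ => z + (v - z) * cis (-(o * t)) :=
    continuous_const.add (continuous_const.mul (continuous_cis.comp (by fun_prop)))
  have h2 : (0 : ℝ) ∈ closure (Ioo 0 ε) := by
    rw [closure_Ioo hε.ne]; exact ⟨le_rfl, hε.le⟩
  have h3 := hc.continuousWithinAt (s := Ioo 0 ε) (x := 0)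
  have h4 : (fun t : ℝ => z + (v - z) * cis (-(o * t))) 0 = v := by
    show z + (v - z) * cis (-(o * 0)) = v
    have : cis (-(o * 0)) = 1 := by simp [cis]
    rw [this]; ring
  have h5 := h3.mem_closure_image h2
  rw [show z + (v - z) * cis (-(o * 0)) = v from h4] at h5
  refine closure_mono ?_ h5
  rintro _ ⟨t, ht, rfl⟩
  exact h1 t ht

/-- exact arcs are shorter than one unit -/
theorem ea_short (C : Ctr U T z a b c d e f) (u : ℝ) (hu : u ∈ Ea T z {c, d}) :
    u + 1 ∉ Ea T z {c, d} := by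
  intro hu1
  obtain ⟨m, hm, hmu⟩ := C.x_own (l := 3) (u := u) (subset_closure hu) (subset_closure hu1)
  have h1 : T (pt z u) = {c, d} := ex_self hu
  have h2 := Lt_col C.irr hmu
  obtain ⟨s, hs⟩ := col_nonempty (a := a) (b := b) (c := c) (d := d) (e := e) (f := f) m
  have h3 : s ∈ ({c, d} : Set (Fin 6)) := by rw [← h1]; exact h2 hs
  exact C.ne_col (l := 3) (m := m) (Ne.symm hm) h3 hs rfl

theorem pt_perZ (z : ℂ) (n : ℤ) (u : ℝ) : pt z (u + 6 * n) = pt z u := by
  unfold pt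
  have h1 : (u + 6 * n) * (Real.pi / 3) = u * (Real.pi / 3) + n * (2 * Real.pi) := by ring
  rw [h1, cis_add]
  have h2 : cis (n * (2 * Real.pi)) = 1 := by
    unfold cis
    have : (((n : ℝ) * (2 * Real.pi) : ℝ) : ℂ) * Complex.I = n * (2 * Real.pi * Complex.I) := by
      push_cast; ring
    rw [this, Complex.exp_int_mul_two_pi_mul_I]
  rw [h2, mul_one]

/-- an angle in a given interval of length six -/
theorem exists_pt_Ico {z y : ℂ} (hy : dist y z = 1) (A : ℝ) :
    ∃ w, A ≤ w ∧ w < A + 6 ∧ y = pt z w := by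
  obtain ⟨W, hW⟩ := exists_pt hy
  have h1 := Int.floor_le ((W - A) / 6)
  have h2 := Int.lt_floor_add_one ((W - A) / 6)
  refine ⟨W + 6 * ((-⌊(W - A) / 6⌋ : ℤ) : ℝ), ?_, ?_, ?_⟩
  · push_cast; linarith
  · push_cast; linarith
  · rw [pt_perZ, hW]

/-- the points near `pt z V` have angles near `V` -/
theorem ang_near (z : ℂ) {V ε : ℝ} (hε : 0 < ε) :
    ∀ᶠ y in 𝓝 (pt z V), dist y z = 1 → ∃ w, |w - V| < ε ∧ y = pt z w := by
  set δ : ℝ := min (ε / 2) 1 with hδ
  have hδ0 : 0 < δ := lt_min (by linarith) one_pos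
  have hδ1 : δ ≤ 1 := min_le_right _ _
  have hδε : δ < ε := lt_of_le_of_lt (min_le_left _ _) (by linarith)
  have hK : IsCompact (pt z '' Icc (V + δ) (V + 6 - δ)) := isCompact_Icc.image (continuous_pt z)
  have hV : pt z V ∉ pt z '' Icc (V + δ) (V + 6 - δ) := by
    rintro ⟨t, ht, h1⟩
    obtain ⟨n, hn⟩ := pt_eq h1
    have h2 : (0 : ℝ) < 6 * n := by linarith [ht.1]
    have h3 : (6 : ℝ) * n < 6 := by linarith [ht.2]
    have h4 : (0 : ℝ) < n := by linarith
    have h5 : (n : ℝ) < 1 := by linarith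
    have h6 : (0 : ℤ) < n := by exact_mod_cast h4
    have h7 : n < 1 := by exact_mod_cast h5
    omega
  filter_upwards [hK.isClosed.isOpen_compl.mem_nhds hV] with y hy hyz
  obtain ⟨w, hw1, hw2, hw⟩ := exists_pt_Ico hyz (V - δ)
  refine ⟨w, ?_, hw⟩
  have h1 : w < V + δ := by
    by_contra hcon
    push Not at hcon
    exact hy ⟨w, ⟨hcon, by linarith⟩, hw.symm⟩
  rw [abs_lt]
  constructor <;> linarith

/-- points of the closure have exact angles nearby -/
theorem ea_near {P : Set (Fin 6)} {V ε : ℝ} (hε : 0 < ε) (hV : pt z V ∈ closure (Ex T z P)) :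
    ∃ w, |w - V| < ε ∧ w ∈ Ea T z P := by
  obtain ⟨y, hy, hyE⟩ := mem_closure_iff_nhds.1 hV _ (ang_near z hε)
  obtain ⟨w, hw, rfl⟩ := hy hyE.1
  exact ⟨w, hw, hyE⟩

theorem pt_ne {u v : ℝ} (h1 : u < v) (h2 : v < u + 6) : pt z u ≠ pt z v := by
  intro h
  obtain ⟨n, hn⟩ := pt_eq h
  have h4 : (n : ℝ) < 0 := by linarith
  have h5 : (-1 : ℝ) < n := by linarith
  have h6 : n < 0 := by exact_mod_cast h4
  have h7 : -1 < n := by exact_mod_cast h5
  omega

/-- **Four ends of the other pair**: `v` a special end of type `ab`. -/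
theorem ends4 (C : Ctr U T z a b c d e f) (R : PreW (Xs T z a b c d e f)) {v : ℂ}
    (hv : v ∈ closure (Ex T z {a, b})) (he : e ∈ T v) (hf : f ∈ T v) :
    ∃ q₁ q₂ q₃ q₄ : ℂ, (q₁ ≠ q₂ ∧ q₁ ≠ q₃ ∧ q₁ ≠ q₄ ∧ q₂ ≠ q₃ ∧ q₂ ≠ q₄ ∧ q₃ ≠ q₄) ∧
      ∀ q, (q = q₁ ∨ q = q₂ ∨ q = q₃ ∨ q = q₄) → St T z q {c, d} ∧ q ∉ Ex T z {c, d} := by
  have hvz := dist_of_closure hv
  obtain ⟨V, rfl⟩ := exists_pt hvz
  have k0 : V ∈ Xs T z a b c d e f 0 := ⟨hvz, he⟩
  have k1 : V ∈ Xs T z a b c d e f 1 := ⟨hvz, hf⟩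
  have k2 : V ∈ Xs T z a b c d e f 2 := hv
  have hE := ea_short C
  -- the two neighbours
  have n1 : pt z (V + 1) ∈ closure (Ex T z {c, d}) := nbr_three R k0 k1 k2
  have n2 : pt z (V - 1) ∈ closure (Ex T z {c, d}) := by
    have e1 : V - 1 + 1 = V := by ring
    exact nbr_three' R (u := V - 1) (by rw [e1]; exact k0) (by rw [e1]; exact k1)
      (by rw [e1]; exact k2)
  have hV3 : pt z V ∉ closure (Ex T z {c, d}) := R.ac V k2
  obtain ⟨w, hw, hwE⟩ := ea_near (ε := 1 / 2) (by norm_num) n1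
  obtain ⟨x, hx, hxE⟩ := ea_near (ε := 1 / 2) (by norm_num) n2
  rw [abs_lt] at hw hx
  obtain ⟨r, hr1, hr2, hrE, hr⟩ := right_end T z {c, d} hE hwE
  obtain ⟨l, hl1, hl2, hlE, hl⟩ := left_end T z {c, d} hE hwE
  obtain ⟨r', hr1', hr2', hrE', hr'⟩ := right_end T z {c, d} hE hxE
  obtain ⟨l', hl1', hl2', hlE', hl'⟩ := left_end T z {c, d} hE hxE
  have sr := st_right (z := z) hr1 hr
  have sl := st_left (z := z) hl1 hl
  have sr' := st_right (z := z) hr1' hr'
  have sl' := st_left (z := z) hl1' hl'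
  have hVE : V ∉ Ea T z {c, d} := fun h1 => hV3 (subset_closure h1)
  -- the arcs do not reach `V`
  have a1 : V < l := by
    rcases lt_trichotomy V l with h1 | h1 | h1
    · exact h1
    · exfalso; rw [h1] at hV3; exact hV3 (closure_of_st sl)
    · exact absurd (hl V ⟨h1, by linarith⟩) hVE
  have a2 : r' < V := by
    rcases lt_trichotomy V r' with h1 | h1 | h1
    · exact absurd (hr' V ⟨by linarith, h1⟩) hVE
    · exfalso; rw [h1] at hV3; exact hV3 (closure_of_st sr')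
    · exact h1
  have b1 : r < V + 3 := by linarith
  have b2 : V - 3 < l' := by linarith
  refine ⟨pt z l', pt z r', pt z l, pt z r, ⟨?_, ?_, ?_, ?_, ?_, ?_⟩, ?_⟩
  · exact pt_ne (by linarith) (by linarith)
  · exact pt_ne (by linarith) (by linarith)
  · exact pt_ne (by linarith) (by linarith)
  · exact pt_ne (by linarith) (by linarith)
  · exact pt_ne (by linarith) (by linarith)
  · exact pt_ne (by linarith) (by linarith)
  · rintro q (rfl | rfl | rfl | rfl)
    · exact ⟨sl', hlE'⟩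
    · exact ⟨sr', hrE'⟩
    · exact ⟨sl, hlE⟩
    · exact ⟨sr, hrE⟩

end Vale.Agent.P032.H642
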