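import Vale.Agent.P032X.H350.SurgM
import Vale.Agent.P032X.H642.AbefG

/-!
# P032: the two word facts

`w1 : W1`, `w2 : W2`: the word facts used by `no_special`, from helper350's theorems on words with
triple letters.
-/

open Set Filter Topology

noncomputable section

namespace Vale.Agent.P032.H642

open Vale.Agent.P032.H350

/-- a subset of the closure of its interior has no isolated points -/
theorem freq_of_reg {A : Set ℝ} (h : A ⊆ closure (interior A)) (u : ℝ) (hu : u ∈ A) :
    ∃ᶠ v in 𝓝[≠] u, v ∈ A := by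
  by_cases h1 : u ∈ interior A
  · have h2 : ∀ᶠ v in 𝓝[≠] u, v ∈ A :=
      mem_nhdsWithin_of_mem_nhds (mem_interior_iff_mem_nhds.1 h1)
    exact h2.frequently
  · have h2 : ∃ᶠ v in 𝓝 u, v ∈ interior A := mem_closure_iff_frequently.1 (h hu)
    rw [frequently_nhdsWithin_iff]
    refine h2.mono fun v hv => ⟨interior_subset hv, ?_⟩
    rintro rfl
    exact h1 hv

/-- word fact L1 -/
theorem w1 : W1 := fun _ R => R.L1x

/-- word fact L2 -/
theorem w2 : W2 := fun _ R h2 h3 V Q hV hQ =>
  R.L2x (freq_of_reg h2) (freq_of_reg h3) V Q hV hQ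

end Vale.Agent.P032.H642
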