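import Vale.Agent.P032X.H880.PreC
import Vale.Agent.P032X.H642.W2

/-!
# P032: the word of a centre with harmless special ends, all namings

`hR_of`: if the closures of the two kinds of exact arcs carry harmless points only (`Hm`) and there are
no ties, then the letters of `S(z)` satisfy `PreW` for every naming of the six colours.
-/

open Set Filter Topology Metric

noncomputable section

namespace Vale.Agent.P032.H642

open Vale.Agent.P032.Six Vale.Agent.P032.S5.H767 Vale.Agent.P032.S5.H349 Vale.Agent.P032.H350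
open Vale.Agent.P032.H880

variable {U : Fin 6 → Set ℂ} {T : ℂ → Set (Fin 6)} {z : ℂ} {a b c d e f : Fin 6}

theorem quad_eq (a b e f : Fin 6) : ({a, b, e, f} : Set (Fin 6)) = {a, b} ∪ {e, f} := by
  ext i; simp only [mem_insert_iff, mem_singleton_iff, mem_union]; tauto

theorem pair_cases {e f e' f' : Fin 6} (h : ({e, f} : Set (Fin 6)) = {e', f'}) :
    (e = e' ∧ f = f') ∨ (e = f' ∧ f = e') := by
  have h1 : e ∈ ({e', f'} : Set (Fin 6)) := by rw [← h]; simp
  have h2 : f ∈ ({e', f'} : Set (Fin 6)) := by rw [← h]; simp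
  have h3 : e' ∈ ({e, f} : Set (Fin 6)) := by rw [h]; simp
  have h4 : f' ∈ ({e, f} : Set (Fin 6)) := by rw [h]; simp
  simp only [mem_insert_iff, mem_singleton_iff] at h1 h2 h3 h4
  rcases h1 with h1 | h1
  · rcases h2 with h2 | h2
    · rcases h4 with h4 | h4
      · left; exact ⟨h1, by rw [h2, h4, h1]⟩
      · left; exact ⟨h1, h4.symm⟩
    · left; exact ⟨h1, h2⟩
  · rcases h2 with h2 | h2
    · right; exact ⟨h1, h2⟩
    · rcases h3 with h3 | h3
      · right; exact ⟨h1, by rw [h2, h3, h1]⟩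
      · right; exact ⟨h1, h3.symm⟩

theorem hm_congr {a' b' e' f' : Fin 6} (h1 : ({a, b} : Set (Fin 6)) = {a', b'})
    (h2 : ({e, f} : Set (Fin 6)) = {e', f'}) {y : ℂ} (h : Hm T a b e f y) :
    Hm T a' b' e' f' y := by
  rcases h with h | ⟨hT, h⟩
  · exact Or.inl h
  · refine Or.inr ⟨by rw [hT, quad_eq, quad_eq, h1, h2], ?_⟩
    rcases pair_cases h2 with ⟨rfl, rfl⟩ | ⟨rfl, rfl⟩
    · exact h
    · exact h.symm

theorem miss_eq (C : Ctr U T z a b c d e f) : ({e, f} : Set (Fin 6)) = (T z)ᶜ := by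
  obtain ⟨⟨ab, ac, ad, ae, af⟩, ⟨bc, bd, be, bf⟩, ⟨cd, ce, cf⟩, ⟨de, df⟩, ef⟩ := C.sep
  ext i
  rw [mem_compl_iff]
  constructor
  · intro hi
    rw [C.pal]
    rcases hi with rfl | hi
    · simp only [mem_insert_iff, mem_singleton_iff, not_or]
      exact ⟨ae.symm, be.symm, ce.symm, de.symm⟩
    · rw [mem_singleton_iff.1 hi]
      simp only [mem_insert_iff, mem_singleton_iff, not_or]
      exact ⟨af.symm, bf.symm, cf.symm, df.symm⟩
  · intro hi
    rcases C.miss hi with h | h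
    · left; exact h
    · right; exact h

/-- the palettes of the exact arcs -/
theorem ex_pair (C : Ctr U T z a b c d e f) {P : Set (Fin 6)} (hP : P ⊆ T z)
    (hne : (Ex T z P).Nonempty) : P = {a, b} ∨ P = {c, d} := by
  obtain ⟨y, hy⟩ := hne
  have h1 := ex_self hy
  rcases C.pairs y hy.1 (by rw [h1]; exact hy.2) (by rw [h1]; exact hP) with h2 | h2
  · left; rw [← h1, h2]
  · right; rw [← h1, h2]

/-- **all namings** -/
theorem hR_of (hmn : Mn4 U T) (C : Ctr U T z a b c d e f) (eab : (Ex T z {a, b}).Nonempty)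
    (ecd : (Ex T z {c, d}).Nonempty) (hab : ∀ y ∈ closure (Ex T z {a, b}), Hm T a b e f y)
    (hcd : ∀ y ∈ closure (Ex T z {c, d}), Hm T c d e f y)
    (adj : ∀ y y', dist y z = 1 → dist y' z = 1 → dist y y' = 1 → (T z)ᶜ ⊆ T y →
      (T z)ᶜ ⊆ T y' → (T y).ncard ≤ 3) :
    ∀ a' b' c' d' e' f', Ctr U T z a' b' c' d' e' f' → PreW (Xs T z a' b' c' d' e' f') := by
  intro a' b' c' d' e' f' C'
  obtain ⟨⟨ab, ac, ad, ae, af⟩, ⟨bc, bd, be, bf⟩, ⟨cd, ce, cf⟩, ⟨de, df⟩, ef⟩ := C.sep
  have hm : ({e, f} : Set (Fin 6)) = {e', f'} := (miss_eq C).trans (miss_eq C').symm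
  have s1 : ({a, b} : Set (Fin 6)) ⊆ T z := by rw [C.pal]; rintro i (rfl | rfl) <;> simp
  have s2 : ({c, d} : Set (Fin 6)) ⊆ T z := by rw [C.pal]; rintro i (rfl | rfl) <;> simp
  have hne : ({a, b} : Set (Fin 6)) ≠ {c, d} := by
    intro h1
    have h2 : a ∈ ({c, d} : Set (Fin 6)) := by rw [← h1]; simp
    rcases h2 with h2 | h2
    exacts [ac h2, ad h2]
  rcases ex_pair C' s1 eab with k1 | k1 <;> rcases ex_pair C' s2 ecd with k2 | k2
  · exact absurd (k1.trans k2.symm) hne
  · refine preW_of_hm hmn C' (by rw [← k1]; exact eab) (by rw [← k2]; exact ecd)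
      (fun y hy => ?_) (fun y hy => ?_) adj
    · exact hm_congr k1 hm (hab y (by rw [k1]; exact hy))
    · exact hm_congr k2 hm (hcd y (by rw [k2]; exact hy))
  · refine preW_of_hm hmn C' (by rw [← k2]; exact ecd) (by rw [← k1]; exact eab)
      (fun y hy => ?_) (fun y hy => ?_) adj
    · exact hm_congr k2 hm (hcd y (by rw [k2]; exact hy))
    · exact hm_congr k1 hm (hab y (by rw [k1]; exact hy))
  · exact absurd (k1.trans k2.symm) hne

end Vale.Agent.P032.H642
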