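import Vale.Agent.P032X.H642.HR
import Vale.Agent.P032X.H642.W2
import Vale.Agent.P032X.H942.Cnt
import Vale.Agent.P032X.H821.NvE
import Vale.Agent.P032X.S5.H358.NoSpec
import Vale.Agent.P032X.S5.H496.Start

/-!
# P032: no special ends without the kinds (K3), the cusp lemma is not needed

`NoK3 T`: a four coloured point of the closure of the exact arcs of a two-pair point `x` shares at most
two colours with `x`.  `NoTie T`: `Adj T x` at all two-pair points `x`.  At a harmless special end `v`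
with the mark `g` and an end `q` of the other type with the mark `p` the fourth vertex `w = v + q - z` is
a two-pair point and `v` is in the closure of its exact arcs with three common colours (`noK_pair`).
So all ends of the other type have the mark `g`, and a clean end of the mark `p` has too many
complementary ends (`spec_noK`).  `no_special_noK`: in the world without (K3) and without ties the ends
of the exact arcs have at most three colours; no cusp lemma, no word fact `W2`.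
-/

open Set Filter Topology Metric

noncomputable section

namespace Vale.Agent.P032.H642

open Vale.Agent.P032.Six Vale.Agent.P032.S5.H767 Vale.Agent.P032.S5.H349 Vale.Agent.P032.H350
open Vale.Agent.P032.H880

variable {U : Fin 6 → Set ℂ} {T : ℂ → Set (Fin 6)} {z v q y : ℂ} {a b c d e f g p i j : Fin 6}

/-- no (K3): the four coloured ends of the exact arcs of two-pair points share at most two colours with
the centre -/
def NoK3 (T : ℂ → Set (Fin 6)) : Prop :=
  ∀ (x y : ℂ) (a b c d : Fin 6), DPt T x a b c d → y ∈ closure (Ex T x {a, b}) →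
    4 ≤ (T y).ncard → (T y ∩ T x).ncard ≤ 2

/-- three common colours -/
theorem three_common {w v : ℂ} {x1 x2 x3 : Fin 6} (h1 : x1 ∈ T v) (h2 : x2 ∈ T v) (h3 : x3 ∈ T v)
    (k1 : x1 ∈ T w) (k2 : x2 ∈ T w) (k3 : x3 ∈ T w) (n12 : x1 ≠ x2) (n13 : x1 ≠ x3)
    (n23 : x2 ≠ x3) : 3 ≤ (T v ∩ T w).ncard := by
  have hs : ({x1, x2, x3} : Set (Fin 6)) ⊆ T v ∩ T w := by
    rintro m (rfl | rfl | hm)
    · exact ⟨h1, k1⟩
    · exact ⟨h2, k2⟩
    · rw [mem_singleton_iff.1 hm]; exact ⟨h3, k3⟩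
  have h5 := Set.ncard_le_ncard hs (Set.toFinite _)
  rw [Set.ncard_insert_of_notMem (by simp [n12, n13]) (Set.toFinite _), Set.ncard_pair n23] at h5
  exact h5

theorem set_cyc (g i p j : Fin 6) : ({g, i, p, j} : Set (Fin 6)) = {i, p, j, g} := by
  ext m; simp only [mem_insert_iff, mem_singleton_iff]; tauto

/-- **A special end and an end of the other type with the other mark give (K3).** -/
theorem noK_pair (h : Irr U T) (hmn : Mn4 U T)
    (n54 : ∀ x y, dist x y = 1 → 4 ≤ (T x).ncard → (T y).ncard ≤ 4) (NK : NoK3 T)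
    (G : GP T z v q a b c d g p) (hpv : p ∈ T v)
    (hend : g ∉ T q ∨ St T z q {c, d} ∨ St T z v {a, b}) : False := by
  have h4v := H942.special_four h G hpv
  obtain ⟨i, j, hi, hj, hT⟩ := G.four h (n54 v _ (by rw [dist_comm]; exact G.dwv) h4v)
  obtain ⟨ij, ig, ip, jg, jp, gp⟩ := G.names hi hj
  have hend' : p ∉ T v ∨ g ∉ T q ∨ St T z q {c, d} ∨ St T z v {a, b} := Or.inr hend
  have hiv : i ∈ T v := by
    have := sub_of_closure h G.hv
    rcases hi with rfl | rfl
    · exact this (by simp)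
    · exact this (by simp)
  have h3 : 3 ≤ (T v ∩ T (v + q - z)).ncard :=
    three_common (x1 := g) (x2 := i) (x3 := p) G.gv hiv hpv (by rw [hT]; simp)
      (by rw [hT]; simp) (by rw [hT]; simp) ig.symm gp ip
  -- near `q`
  obtain ⟨y2, -, hE2, -, -, hc2⟩ := G.near_q h hi hj hT univ_mem
  -- near `v`
  have hcl : v ∈ closure (Ex T (v + q - z) {g, i}) ∪ closure (Ex T (v + q - z) {i, p}) := by
    rw [← closure_union]
    refine mem_closure_iff_nhds.2 fun V hV => ?_
    obtain ⟨y, hyV, hyE, -, -, hc⟩ := G.near_v h hi hj hT hV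
    rcases hc with h1 | h1 | h1
    · exact ⟨y, hyV, Or.inl (by rw [← h1]; exact hyE)⟩
    · exact (G.not_gp h hmn hi hj hT hend' hyE.1 h1).elim
    · exact ⟨y, hyV, Or.inr (by rw [← h1]; exact hyE)⟩
  have ne : ∀ {P : Set (Fin 6)}, v ∈ closure (Ex T (v + q - z) P) →
      ∃ y1, y1 ∈ Ex T (v + q - z) P := by
    intro P hP
    obtain ⟨y1, -, hy1⟩ := mem_closure_iff_nhds.1 hP univ univ_mem
    exact ⟨y1, hy1⟩
  rcases hcl with hcl | hcl
  · obtain ⟨y1, hy1⟩ := ne hcl
    have hT1 : T y1 = {g, i} := ex_self hy1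
    rcases hc2 with h1 | h1 | h1
    · have hw : DPt T (v + q - z) g i p j :=
        ⟨hT, gp, jg.symm, ip, ij, ig.symm, jp.symm, ⟨y1, hy1⟩, ⟨y2, by rw [← h1]; exact hE2⟩⟩
      have := NK _ _ _ _ _ _ hw hcl h4v
      omega
    · exact G.not_gp h hmn hi hj hT hend' hE2.1 (h1.trans (Set.pair_comm _ _))
    · exact G.pd h hmn hi hj hT hy1.1 hE2.1 hT1 (h1.trans (Set.pair_comm _ _)) (by simp) (by simp)
        (by simp) ig.symm jg.symm ij
  · obtain ⟨y1, hy1⟩ := ne hcl
    have hT1 : T y1 = {i, p} := ex_self hy1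
    rcases hc2 with h1 | h1 | h1
    · exact G.pd h hmn hi hj hT hy1.1 hE2.1 (hT1.trans (Set.pair_comm _ _)) h1 (by simp) (by simp)
        (by simp) ip.symm jp.symm ij
    · exact G.not_gp h hmn hi hj hT hend' hE2.1 (h1.trans (Set.pair_comm _ _))
    · have hw : DPt T (v + q - z) i p j g :=
        ⟨hT.trans (set_cyc g i p j), ij, ig, jp.symm, gp.symm, ip, jg, ⟨y1, hy1⟩,
          ⟨y2, by rw [← h1]; exact hE2⟩⟩
      have := NK _ _ _ _ _ _ hw hcl h4v
      omega

/-- **No special end of type `ab` with the mark `e`**, without (K3) -/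
theorem spec_noK (h : Irr U T) (hmn : Mn4 U T)
    (n54 : ∀ x y, dist x y = 1 → 4 ≤ (T x).ncard → (T y).ncard ≤ 4) (NK : NoK3 T)
    (C : Ctr U T z a b c d e f) (R : PreW (Xs T z a b c d e f)) (hab : GdE T z a b e f)
    (hcd : GdE T z c d e f) (L1 : L1s T z a b c d e f)
    (hv : v ∈ closure (Ex T z {a, b})) (hG : Gd T a b e f v) (hf : f ∈ T v) : False := by
  obtain ⟨⟨ab, ac, ad, ae, af⟩, ⟨bc, bd, be, bf⟩, ⟨cd, ce, cf⟩, ⟨de, df⟩, ef⟩ := C.sep
  have nd := C.nd
  have nd' : [a, b, c, d, f, e].Nodup := (ctr_swapEF C).nd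
  obtain ⟨q₁, q₂, q₃, q₄, hne, hq⟩ := ends4 C R hv hG.1 hf
  -- all ends of the other type have the mark `e`
  have hE : ∀ q, (q = q₁ ∨ q = q₂ ∨ q = q₃ ∨ q = q₄) →
      q ∈ closure (Ex T z {c, d}) ∧ Gd T c d e f q := by
    intro q hq'
    obtain ⟨h1, h2⟩ := hq q hq'
    have h3 := closure_of_st h1
    refine ⟨h3, (hcd q h3 h2).resolve_right fun h5 => ?_⟩
    exact noK_pair h hmn n54 NK (gp_of nd C.pal hv h3 hG h5) hf (Or.inr (Or.inl h1))
  obtain ⟨y0, hy0, hfy, hey⟩ := L1
  rcases hy0 with hy0 | hy0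
  · -- a clean end of type `abf`
    have hy0E : y0 ∉ Ex T z {a, b} := by
      intro h1
      rw [ex_self h1] at hfy
      rcases hfy with h2 | h2
      exacts [af h2.symm, bf h2.symm]
    have hGy : Gd T a b f e y0 := by
      rcases hab y0 hy0 hy0E with h1 | h1
      · exact absurd h1.1 hey
      · exact h1
    have G : ∀ q, (q = q₁ ∨ q = q₂ ∨ q = q₃ ∨ q = q₄) → GP T z y0 q a b c d f e := fun q h1 =>
      gp_of nd' C.pal hy0 (hE q h1).1 hGy (hE q h1).2
    rcases H942.count_clean h (G q₁ (by simp)) (G q₂ (by simp)) (G q₃ (by simp)) hey with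
      h1 | h1 | h1
    exacts [hne.1 h1, hne.2.1 h1, hne.2.2.2.1 h1]
  · -- a clean end of type `cdf`
    have hyE : y0 ∉ Ex T z {c, d} := by
      intro h1
      rw [ex_self h1] at hfy
      rcases hfy with h2 | h2
      exacts [cf h2.symm, df h2.symm]
    have hGy : Gd T c d f e y0 := by
      rcases hcd y0 hy0 hyE with h1 | h1
      · exact absurd h1.1 hey
      · exact h1
    exact noK_pair h hmn n54 NK (gp_of nd C.pal hv hy0 hG hGy) hf (Or.inl hey)

/-- one type -/
theorem main_noK (h : Irr U T) (hmn : Mn4 U T)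
    (n54 : ∀ x y, dist x y = 1 → 4 ≤ (T x).ncard → (T y).ncard ≤ 4) (NK : NoK3 T)
    (C : Ctr U T z a b c d e f) (R : PreW (Xs T z a b c d e f)) (R' : PreW (Xs T z a b c d f e))
    (eab : (Ex T z {a, b}).Nonempty) (ecd : (Ex T z {c, d}).Nonempty)
    (hab : ∀ y ∈ closure (Ex T z {a, b}), Hm T a b e f y)
    (hcd : ∀ y ∈ closure (Ex T z {c, d}), Hm T c d e f y) :
    ∀ y ∈ closure (Ex T z {a, b}), (T y).ncard ≤ 3 := by
  intro y hy
  by_contra hcon
  obtain ⟨⟨ab, ac, ad, ae, af⟩, ⟨bc, bd, be, bf⟩, ⟨cd, ce, cf⟩, ⟨de, df⟩, ef⟩ := C.sep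
  obtain ⟨hT, h1⟩ := (hab y hy).resolve_left hcon
  have he : e ∈ T y := by rw [hT]; simp
  have hf : f ∈ T y := by rw [hT]; simp
  have g1 := gdE_of h C ecd hab
  have g2 := gdE_of h C.swapAC eab hcd
  have C' := ctr_swapEF C
  have sw : ∀ {a b e f : Fin 6}, GdE T z a b e f → GdE T z a b f e :=
    fun hg y hy hyE => (hg y hy hyE).symm
  rcases h1 with h1 | h1
  · exact spec_noK h hmn n54 NK C R g1 g2 (l1s_of w1 R) hy (gd_of_one af bf ef hT h1) hf
  · refine spec_noK h hmn n54 NK C' R' (sw g1) (sw g2) (l1s_of w1 R') hy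
      (gd_of_one ae be ef.symm ?_ h1) he
    rw [hT]; ext i; simp only [mem_insert_iff, mem_singleton_iff]; tauto

/-- **No special ends without (K3)** -/
theorem no_special_noK (h : Irr U T) (hmn : Mn4 U T)
    (n54 : ∀ x y, dist x y = 1 → 4 ≤ (T x).ncard → (T y).ncard ≤ 4) (NK : NoK3 T)
    (C : Ctr U T z a b c d e f) (eab : (Ex T z {a, b}).Nonempty) (ecd : (Ex T z {c, d}).Nonempty)
    (hab : ∀ y ∈ closure (Ex T z {a, b}), Hm T a b e f y)
    (hcd : ∀ y ∈ closure (Ex T z {c, d}), Hm T c d e f y) (adj : Adj T z) :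
    ∀ y, (y ∈ closure (Ex T z {a, b}) ∨ y ∈ closure (Ex T z {c, d})) → (T y).ncard ≤ 3 := by
  have hR := hR_of hmn C eab ecd hab hcd adj
  rintro y (hy | hy)
  · exact main_noK h hmn n54 NK C (hR _ _ _ _ _ _ C) (hR _ _ _ _ _ _ (ctr_swapEF C)) eab ecd hab
      hcd y hy
  · exact main_noK h hmn n54 NK C.swapAC (hR _ _ _ _ _ _ C.swapAC)
      (hR _ _ _ _ _ _ (ctr_swapEF C.swapAC)) ecd eab hcd hab y hy

/-- no ties: a point `y` of the circle of a two-pair point with at least four colours and both missing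
colours has no point of the circle at distance one with both missing colours -/
def NoTie (T : ℂ → Set (Fin 6)) : Prop :=
  ∀ (x : ℂ) (a b c d : Fin 6), DPt T x a b c d → Adj T x

/-- no two-pair point among the ends of the exact arcs -/
def NoDD (T : ℂ → Set (Fin 6)) : Prop :=
  ∀ (x y : ℂ) (a b c d p q r s : Fin 6), DPt T x a b c d → y ∈ closure (Ex T x {a, b}) →
    DPt T y p q r s → False

/-- without (K3) a four coloured end of type `ab` has the palette `abef` and is harmless -/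
theorem hm_noK (h : Irr U T) (hmin : Mn U T)
    (n54 : ∀ x y, dist x y = 1 → 4 ≤ (T x).ncard → (T y).ncard ≤ 4) (NK : NoK3 T)
    (hz : DPt T z a b c d) (nd : [a, b, c, d, e, f].Nodup)
    (hD : ∀ y ∈ closure (Ex T z {a, b}), ∀ p q r s, ¬ DPt T y p q r s) :
    ∀ y ∈ closure (Ex T z {a, b}), Hm T a b e f y := by
  intro y hy
  by_cases h3 : (T y).ncard ≤ 3
  · exact Or.inl h3
  have h4 : 4 ≤ (T y).ncard := by omega
  have C := S5.H358.ctr_of_dpt h hz nd
  obtain ⟨⟨ab, ac, ad, ae, af⟩, ⟨bc, bd, be, bf⟩, ⟨cd, ce, cf⟩, ⟨de, df⟩, ef⟩ := C.sep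
  have hz4 : 4 ≤ (T z).ncard := by
    rw [hz.pal, Set.ncard_insert_of_notMem (by simp [ab, ac, ad]) (Set.toFinite _),
      Set.ncard_insert_of_notMem (by simp [bc, bd]) (Set.toFinite _), Set.ncard_pair cd]
  have hy4 : (T y).ncard ≤ 4 := n54 z y (by rw [dist_comm]; exact dist_of_closure hy) hz4
  have h2 := NK _ _ _ _ _ _ hz hy h4
  have hsub := sub_of_closure h hy
  have hs : T y ⊆ {a, b, e, f} := by
    intro m hm
    by_contra hcon
    simp only [mem_insert_iff, mem_singleton_iff, not_or] at hcon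
    obtain ⟨ma, mb, me, mf⟩ := hcon
    have hmz : m ∈ T z := by
      by_contra hmz
      rcases C.miss hmz with h5 | h5
      exacts [me h5, mf h5]
    have h5 := three_common (T := T) (v := y) (w := z) (x1 := a) (x2 := b) (x3 := m)
      (hsub (by simp)) (hsub (by simp)) hm (by rw [hz.pal]; simp) (by rw [hz.pal]; simp) hmz ab
      (Ne.symm ma) (Ne.symm mb)
    omega
  exact H821.hm_of h hmin (by simp [ab, ae, af, be, bf, ef]) hy hy4 hs fun _ => hD y hy

/-- **Clean ends in the world without (K3), without ties and without two-pair ends** -/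
theorem clean_noK (h : Irr U T) (hmn : Mn4 U T) (hmin : Mn U T)
    (n54 : ∀ x y, dist x y = 1 → 4 ≤ (T x).ncard → (T y).ncard ≤ 4) (NK : NoK3 T)
    (NT : NoTie T) (ND : NoDD T) (hz : DPt T z a b c d) :
    ∀ y, (y ∈ closure (Ex T z {a, b}) ∨ y ∈ closure (Ex T z {c, d})) → (T y).ncard ≤ 3 := by
  obtain ⟨e, f, nd⟩ := DPt.exists_nodup hz
  have C := S5.H358.ctr_of_dpt h hz nd
  obtain ⟨y1, hy1⟩ := hz.arc1
  obtain ⟨y2, hy2⟩ := hz.arc2
  refine no_special_noK h hmn n54 NK C ⟨y1, hy1⟩ ⟨y2, hy2⟩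
    (hm_noK h hmin n54 NK hz nd fun y hy p q r s hD => ND _ _ _ _ _ _ _ _ _ _ hz hy hD)
    (hm_noK h hmin n54 NK hz.swap C.swapAC.nd fun y hy p q r s hD =>
      ND _ _ _ _ _ _ _ _ _ _ hz.swap hy hD) (NT _ _ _ _ _ hz)

end Vale.Agent.P032.H642
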