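import Vale.Agent.P032X.H642.NoK
import Vale.Agent.P032X.H942.Fin
import Vale.Agent.P032X.H299.SpcN
import Vale.Agent.P032X.S5.H11.TopD

/-!
# P032: the end of the hand part

`gamV_noK`: without `K3` and `C1` (`H942/Fin.lean`) all two-pair points are `GamV`; no cusp lemma.
`k3_or_c1`: in a frame with `N5` and the static facts `S1`, `S2` there is a `K3` or a `C1`.
-/

open Set Filter Topology Metric

noncomputable section

namespace Vale.Agent.P032.H642

open Vale.Agent.P032.Six Vale.Agent.P032.S5.H767 Vale.Agent.P032.S5.H349 Vale.Agent.P032.S5.H358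
open Vale.Agent.P032.H299 Vale.Agent.P032.H942 Vale.Agent.P032.H361 Vale.Agent.P032.H510

variable {U : Fin 6 → Set ℂ} {T : ℂ → Set (Fin 6)} {z : ℂ} {a b c d : Fin 6}

theorem noK3_of (n54 : ∀ x y, dist x y = 1 → 4 ≤ (T x).ncard → (T y).ncard ≤ 4)
    (nK : ¬ K3 T) : NoK3 T := by
  intro x y a b c d hx hy h4
  have hx4 : (T x).ncard = 4 := card_dptN hx
  have h5 := n54 x y (by rw [dist_comm]; exact dist_of_closure hy) hx4.ge
  have hs : (T x)ᶜ ⊆ T y := by
    by_contra hcon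
    exact nK ⟨x, a, b, c, d, y, hx, hy, by omega, hcon⟩
  have h6 := Set.ncard_add_ncard_compl (T x)
  rw [Nat.card_eq_fintype_card, Fintype.card_fin] at h6
  have h7 : (T y ∩ T x) ∪ (T x)ᶜ ⊆ T y := union_subset inter_subset_left hs
  have h8 : Disjoint (T y ∩ T x) (T x)ᶜ :=
    Set.disjoint_left.2 fun i h1 h2 => h2 h1.2
  have h9 := Set.ncard_le_ncard h7 (Set.toFinite _)
  rw [Set.ncard_union_eq h8 (Set.toFinite _) (Set.toFinite _)] at h9
  omega

/-- **All two-pair points are `GamV`** -/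
theorem gamV_noK (h : Irr U T) (hmn : Mn U T)
    (n54 : ∀ x y, dist x y = 1 → 4 ≤ (T x).ncard → (T y).ncard ≤ 4)
    (nK : ¬ K3 T) (nC : ¬ C1 T) (hz : DPt T z a b c d) : GamV T z := by
  obtain ⟨e, f, nd⟩ := hz.exists_nodup
  have C := ctr_of_dpt h hz nd
  have nd' : [c, d, a, b, e, f].Nodup := C.swapAC.nd
  obtain ⟨p1, hp1⟩ := hz.arc1
  obtain ⟨p2, hp2⟩ := hz.arc2
  have key := no_special_noK h hmn n54 (noK3_of n54 nK) C ⟨p1, hp1⟩ ⟨p2, hp2⟩
    (fun y hy => end_hm h hmn n54 nK nC hz nd hy)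
    (fun y hy => end_hm h hmn n54 nK nC hz.swap nd' hy) (c1_adj n54 nC hz)
  refine ⟨fun P hP hP2 y hy => ?_, c1_adj n54 nC hz⟩
  obtain ⟨q, hq⟩ := closure_nonempty_iff.1 ⟨y, hy⟩
  rcases ex_cases C hP hq with rfl | rfl
  · exact key y (Or.inl hy)
  · exact key y (Or.inr hy)

/-- **`K3` or a tie** -/
theorem k3_or_c1 (h : Irr U T) (hmn : Mn U T) (hN : N5 T) (hS1 : S1 T) (hS2 : S2 T) :
    K3 T ∨ C1 T := by
  by_contra hcon
  push Not at hcon
  have n54 : ∀ x y, dist x y = 1 → 4 ≤ (T x).ncard → (T y).ncard ≤ 4 :=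
    fun x y hd hx => hN.le4 (by rw [dist_comm]; exact hd) hx
  have hK : ∀ z a b c d, DPt T z a b c d → GamV T z :=
    fun z a b c d hz => gamV_noK h hmn n54 hcon.1 hcon.2 hz
  have h4 := le4_of_gamN h hmn hN hK
  have hD := no_D_of_gamN h hmn hN hS1 hS2 hK
  refine h.coreD_four' hmn h4 fun z v _ _ hzv => ?_
  rcases hzv with h5 | ⟨a, b, c, d, hz⟩
  · have := h4 z
    omega
  · exact hD z a b c d hz

end Vale.Agent.P032.H642
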